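import Mathlib

/-!
The three-dimensional one-species relativistic Vlasov-Maxwell system and its classical solutions.
-/

open MeasureTheory Set Filter Topology

namespace Vale.Agent.P107.RVM

/-- Three-dimensional space, in Cartesian coordinates. -/
abbrev V3 : Type := Fin 3 → ℝ

/-- The Euclidean length `|v|`. -/
noncomputable def len (v : V3) : ℝ := Real.sqrt (∑ i, v i ^ 2)

/-- The particle energy `q(v) = √(1 + |v|²)`. -/
noncomputable def q (v : V3) : ℝ := Real.sqrt (1 + len v ^ 2)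

/-- The particle velocity `u(v) = v / q(v)`. -/
noncomputable def u (v : V3) : V3 := fun i => v i / q v

/-- The cross product `a × b`; the indices `i + 1` and `i + 2` are modulo three. -/
def cross (a b : V3) : V3 := fun i => a (i + 1) * b (i + 2) - a (i + 2) * b (i + 1)

/-- The partial derivative `∂ᵢ g (x)` of a scalar function. -/
noncomputable def pd (i : Fin 3) (g : V3 → ℝ) (x : V3) : ℝ := fderiv ℝ g x (Pi.single i 1)

/-- The divergence of a vector field. -/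
noncomputable def div (F : V3 → V3) (x : V3) : ℝ := ∑ i, pd i (fun y => F y i) x

/-- The curl of a vector field; the indices `i + 1` and `i + 2` are modulo three. -/
noncomputable def curl (F : V3 → V3) (x : V3) : V3 := fun i =>
  pd (i + 1) (fun y => F y (i + 2)) x - pd (i + 2) (fun y => F y (i + 1)) x

/-- The charge density `ρ_f(t,x) = ∫ f dv`. -/
noncomputable def rho (f : ℝ → V3 → V3 → ℝ) (t : ℝ) (x : V3) : ℝ := ∫ v, f t x v

/-- The current density `j_f(t,x) = ∫ u(v) f dv`. -/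
noncomputable def cur (f : ℝ → V3 → V3 → ℝ) (t : ℝ) (x : V3) : V3 := fun i => ∫ v, u v i * f t x v

/-- `F` is a `C¹` vector field on `[0,T) × ℝ³` that belongs to `C([0,T); L²(ℝ³))`. -/
structure IsField (T : ℝ) (F : ℝ → V3 → V3) : Prop where
  c1 : ContDiffOn ℝ 1 (fun z : ℝ × V3 => F z.1 z.2) (Ico 0 T ×ˢ univ)
  mem_l2 : ∀ t ∈ Ico 0 T, MemLp (F t) 2 volume
  cont_l2 : ∀ t ∈ Ico 0 T,
    Tendsto (fun s => eLpNorm (fun x => F s x - F t x) 2 volume) (𝓝[Ico 0 T] t) (𝓝 0)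

/-- `(f, E, B)` is a classical solution on `[0,T)` of the relativistic Vlasov-Maxwell system:
a `C¹` triple with `f ≥ 0`, solving the equations pointwise, with `E, B ∈ C([0,T); L²)`, and such
that the `(x,v)`-support of `f` stays in a compact set on compact time subintervals. -/
structure IsClassicalSolution (T : ℝ) (f : ℝ → V3 → V3 → ℝ) (E B : ℝ → V3 → V3) : Prop where
  f_nonneg : ∀ t ∈ Ico 0 T, ∀ x v, 0 ≤ f t x v
  f_c1 : ContDiffOn ℝ 1 (fun z : ℝ × V3 × V3 => f z.1 z.2.1 z.2.2) (Ico 0 T ×ˢ univ)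
  E_field : IsField T E
  B_field : IsField T B
  vlasov : ∀ t ∈ Ico 0 T, ∀ x v,
    derivWithin (fun s => f s x v) (Ico 0 T) t + ∑ i, u v i * pd i (fun y => f t y v) x
      + ∑ i, (E t x i + cross (u v) (B t x) i) * pd i (fun w => f t x w) v = 0
  ampere : ∀ t ∈ Ico 0 T, ∀ x i,
    derivWithin (fun s => E s x i) (Ico 0 T) t - curl (B t) x i = - cur f t x i
  faraday : ∀ t ∈ Ico 0 T, ∀ x i,
    derivWithin (fun s => B s x i) (Ico 0 T) t + curl (E t) x i = 0
  gauss : ∀ t ∈ Ico 0 T, ∀ x, div (E t) x = rho f t x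
  gauss_mag : ∀ t ∈ Ico 0 T, ∀ x, div (B t) x = 0
  compact_support : ∀ t ∈ Ico 0 T, ∃ R : ℝ, ∀ s ∈ Icc 0 t, ∀ x v,
    f s x v ≠ 0 → len x ≤ R ∧ len v ≤ R

/-- The momentum radius `P(t) = sup {|v| : f(s,x,v) ≠ 0 for some s ∈ [0,t] and some x}`. -/
noncomputable def momentumRadius (f : ℝ → V3 → V3 → ℝ) (t : ℝ) : ℝ :=
  sSup {r : ℝ | ∃ s ∈ Icc 0 t, ∃ x v, f s x v ≠ 0 ∧ r = len v}

/-- The momentum support of `f` is bounded on `[0,T)`. -/
def BoundedMomenta (T : ℝ) (f : ℝ → V3 → V3 → ℝ) : Prop :=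
  ∃ R : ℝ, ∀ t ∈ Ico 0 T, ∀ x v, f t x v ≠ 0 → len v ≤ R

/-- The moment `∫ q(v)^α f(t,x,v) dv`. -/
noncomputable def moment (α : ℝ) (f : ℝ → V3 → V3 → ℝ) (t : ℝ) (x : V3) : ℝ :=
  ∫ v, q v ^ α * f t x v

end Vale.Agent.P107.RVM
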